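import Vale.Agent.P128.B7a.Main
import Vale.Agent.P128.RAD.Main
import Vale.Agent.P128.J.Flat

/-! P128 block B7b: regularity at flat points. Interface; see notes/P128.md. -/

namespace Vale.Agent.P128

open MeasureTheory Set Metric Filter Topology
open scoped ENNReal

theorem FLAT {c : ℝ} (hc : 0 < c) : ∃ δ₀ ε₀ τ₁ τ₀ A α : ℝ, 0 < δ₀ ∧ 0 < ε₀ ∧ 0 < τ₀ ∧
    τ₀ ≤ τ₁ ∧ τ₁ ≤ 1 / 10 ∧ 0 < α ∧ α ≤ 1 ∧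
    ∀ (Ω : Set ℂ) (ε : ℝ) (wk : Prop) (u : ℂ → ℝ) (K : Set ℂ), AM Ω ε wk c u K →
    ∀ (y : ℂ) (r : ℝ), y ∈ K → 0 < r → closedBall y r ⊆ Ω → ε * √r ≤ ε₀ →
      D u K y r ≤ δ₀ * r → len K y (τ₁ * r) ≤ 2.5 * (τ₁ * r) →
      ∃ e φ φ', Graph K y e (τ₀ * r) A α r φ φ' :=
  J.flat_J hc

end Vale.Agent.P128
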